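import Mathlib

open MeasureTheory ProbabilityTheory Real
open scoped RealInnerProductSpace

namespace Vale.Agent.Results.P226.SmallCells

variable {E : Type*} [NormedAddCommGroup E] [InnerProductSpace ℝ E] [FiniteDimensional ℝ E]
  [MeasurableSpace E] [BorelSpace E]

/-- law of a linear functional -/
lemma map_inner (w : E) :
    (stdGaussian E).map (fun x => ⟪w, x⟫) = gaussianReal 0 (‖w‖ ^ 2).toNNReal := by
  have h := IsGaussian.map_eq_gaussianReal (μ := stdGaussian E) (innerSL ℝ w)
  rw [integral_strongDual_stdGaussian, variance_dual_stdGaussian, innerSL_apply_norm] at h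
  exact h

lemma integrable_inner (w : E) : Integrable (fun x => ⟪w, x⟫) (stdGaussian E) :=
  IsGaussian.integrable_dual (stdGaussian E) (innerSL ℝ w)

lemma inner_setIntegral (w : E) (A : Set E) :
    ⟪w, ∫ x in A, x ∂(stdGaussian E)⟫ = ∫ x in A, ⟪w, x⟫ ∂(stdGaussian E) := by
  have hint : Integrable (fun x : E => x) ((stdGaussian E).restrict A) :=
    (IsGaussian.integrable_id (μ := stdGaussian E)).restrict
  exact ((innerSL ℝ w).integral_comp_comm hint).symm

lemma integral_exp_inner (w : E) :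
    ∫ x, Real.exp ⟪w, x⟫ ∂(stdGaussian E) = Real.exp (‖w‖ ^ 2 / 2) := by
  have h := mgf_gaussianReal (map_inner w) 1
  simp only [mgf, one_mul] at h
  rw [h]
  congr 1
  rw [Real.coe_toNNReal _ (by positivity)]
  ring

lemma integrable_exp_inner (w : E) :
    Integrable (fun x => Real.exp ⟪w, x⟫) (stdGaussian E) := by
  have h := integrable_exp_mul_gaussianReal (μ := 0) (v := (‖w‖ ^ 2).toNNReal) 1
  rw [← map_inner w] at h
  have h2 := (integrable_map_measure (by fun_prop) (by fun_prop)).1 h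
  simpa [Function.comp_def] using h2

lemma integrable_inner_sq (w : E) : Integrable (fun x => ⟪w, x⟫ ^ 2) (stdGaussian E) :=
  (IsGaussian.memLp_dual (stdGaussian E) (innerSL ℝ w) 2 (by simp)).integrable_sq

lemma integral_inner_sq (w : E) : ∫ x, ⟪w, x⟫ ^ 2 ∂(stdGaussian E) = ‖w‖ ^ 2 := by
  have h := variance_dual_stdGaussian (E := E) (innerSL ℝ w)
  rw [variance_of_integral_eq_zero (by fun_prop) (integral_strongDual_stdGaussian _),
    innerSL_apply_norm] at h
  exact h

lemma integrable_pos_sq (w : E) : Integrable (fun x => (max ⟪w, x⟫ 0) ^ 2) (stdGaussian E) := by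
  refine (integrable_inner_sq w).mono' (by fun_prop) (Filter.Eventually.of_forall fun x => ?_)
  rw [Real.norm_of_nonneg (by positivity)]
  rcases le_total ⟪w, x⟫ 0 with h | h
  · rw [max_eq_right h]; nlinarith [sq_nonneg ⟪w, x⟫]
  · rw [max_eq_left h]

lemma integral_pos_sq (w : E) :
    ∫ x, (max ⟪w, x⟫ 0) ^ 2 ∂(stdGaussian E) = ‖w‖ ^ 2 / 2 := by
  have hneg : ∫ x, (max ⟪w, x⟫ 0) ^ 2 ∂(stdGaussian E)
      = ∫ x, (max ⟪w, -x⟫ 0) ^ 2 ∂(stdGaussian E) := by
    have hm := stdGaussian_map (E := E) (LinearIsometryEquiv.neg ℝ)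
    conv_lhs => rw [← hm]
    rw [integral_map (by fun_prop) (by fun_prop)]
    simp
  have hint2 : Integrable (fun x => (max ⟪w, -x⟫ 0) ^ 2) (stdGaussian E) := by
    have := integrable_pos_sq (-w)
    simpa [inner_neg_left, inner_neg_right] using this
  have hsum : ∫ x, (max ⟪w, x⟫ 0) ^ 2 ∂(stdGaussian E)
      + ∫ x, (max ⟪w, -x⟫ 0) ^ 2 ∂(stdGaussian E) = ‖w‖ ^ 2 := by
    rw [← integral_add (integrable_pos_sq w) hint2, ← integral_inner_sq w]
    congr 1
    ext x
    rw [inner_neg_right]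
    rcases le_total ⟪w, x⟫ 0 with h | h
    · rw [max_eq_right h, max_eq_left (by linarith)]; ring
    · rw [max_eq_left h, max_eq_right (by linarith)]; ring
  linarith

/-- first cell bound -/
lemma cell_half (A : Set E) :
    ‖∫ x in A, x ∂(stdGaussian E)‖ ^ 2 ≤ (stdGaussian E).real A / 2 := by
  set z := ∫ x in A, x ∂(stdGaussian E) with hz
  have h1 : ‖z‖ ^ 2 = ∫ x in A, ⟪z, x⟫ ∂(stdGaussian E) := by
    rw [← inner_setIntegral, ← hz, real_inner_self_eq_norm_sq]
  have h2 : ∫ x in A, ⟪z, x⟫ ∂(stdGaussian E)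
      ≤ ∫ x in A, (1 / 4 + (max ⟪z, x⟫ 0) ^ 2) ∂(stdGaussian E) := by
    refine integral_mono (integrable_inner z).restrict
      ((integrable_const _).add (integrable_pos_sq z).restrict) fun x => ?_
    rcases le_total ⟪z, x⟫ 0 with h | h
    · rw [max_eq_right h]; simp only; nlinarith
    · rw [max_eq_left h]; simp only; nlinarith [sq_nonneg (⟪z, x⟫ - 1 / 2)]
  have h3 : ∫ x in A, (1 / 4 + (max ⟪z, x⟫ 0) ^ 2) ∂(stdGaussian E)
      = (stdGaussian E).real A / 4 + ∫ x in A, (max ⟪z, x⟫ 0) ^ 2 ∂(stdGaussian E) := by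
    rw [integral_add (integrable_const _) (integrable_pos_sq z).restrict]
    simp
    ring
  have h4 : ∫ x in A, (max ⟪z, x⟫ 0) ^ 2 ∂(stdGaussian E) ≤ ‖z‖ ^ 2 / 2 := by
    rw [← integral_pos_sq z]
    exact setIntegral_le_integral (integrable_pos_sq z)
      (Filter.Eventually.of_forall fun x => by positivity)
  linarith

/-- second cell bound -/
lemma cell_log (A : Set E) (ha : 0 < (stdGaussian E).real A) :
    ‖∫ x in A, x ∂(stdGaussian E)‖ ^ 2
      ≤ 2 * (stdGaussian E).real A ^ 2 * Real.log (1 / (stdGaussian E).real A) := by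
  set z := ∫ x in A, x ∂(stdGaussian E) with hz
  set a := (stdGaussian E).real A with ha'
  set w : E := (1 / a) • z with hw
  have hwn : ‖w‖ ^ 2 = ‖z‖ ^ 2 / a ^ 2 := by
    rw [hw, norm_smul, mul_pow, Real.norm_of_nonneg (by positivity)]
    field_simp
  set b : ℝ := Real.exp (‖w‖ ^ 2 / 2) / a with hb
  have hbpos : 0 < b := by positivity
  have h1 : ‖z‖ ^ 2 / a = ∫ x in A, ⟪w, x⟫ ∂(stdGaussian E) := by
    rw [← inner_setIntegral, ← hz, hw, real_inner_smul_left, real_inner_self_eq_norm_sq]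
    ring
  have h2 : ∫ x in A, ⟪w, x⟫ ∂(stdGaussian E)
      ≤ ∫ x in A, (Real.exp ⟪w, x⟫ / b + (Real.log b - 1)) ∂(stdGaussian E) := by
    refine integral_mono (integrable_inner w).restrict
      (((integrable_exp_inner w).div_const b).restrict.add (integrable_const _)) fun x => ?_
    have := Real.add_one_le_exp (⟪w, x⟫ - Real.log b)
    rw [Real.exp_sub, Real.exp_log hbpos] at this
    simp only
    linarith
  have h3 : ∫ x in A, (Real.exp ⟪w, x⟫ / b + (Real.log b - 1)) ∂(stdGaussian E)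
      = (∫ x in A, Real.exp ⟪w, x⟫ ∂(stdGaussian E)) / b + a * (Real.log b - 1) := by
    rw [integral_add ((integrable_exp_inner w).div_const b).restrict (integrable_const _),
      integral_div]
    simp [ha']
  have h4 : ∫ x in A, Real.exp ⟪w, x⟫ ∂(stdGaussian E) ≤ Real.exp (‖w‖ ^ 2 / 2) := by
    rw [← integral_exp_inner w]
    exact setIntegral_le_integral (integrable_exp_inner w)
      (Filter.Eventually.of_forall fun x => by positivity)
  have h5 : (∫ x in A, Real.exp ⟪w, x⟫ ∂(stdGaussian E)) / b ≤ a := by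
    rw [div_le_iff₀ hbpos, hb]
    calc _ ≤ Real.exp (‖w‖ ^ 2 / 2) := h4
      _ = a * (Real.exp (‖w‖ ^ 2 / 2) / a) := by field_simp
  have h6 : Real.log b = ‖w‖ ^ 2 / 2 - Real.log a := by
    rw [hb, Real.log_div (by positivity) (by positivity), Real.log_exp]
  have h7 : ‖z‖ ^ 2 / a ≤ a + a * (‖z‖ ^ 2 / a ^ 2 / 2 - Real.log a - 1) := by
    rw [← hwn, ← h6]; linarith
  have h8 : a * (‖z‖ ^ 2 / a ^ 2 / 2) = ‖z‖ ^ 2 / a / 2 := by field_simp
  have h9 : ‖z‖ ^ 2 / a ≤ 2 * (a * (- Real.log a)) := by nlinarith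
  have h10 : ‖z‖ ^ 2 ≤ 2 * (a * (- Real.log a)) * a := by
    rwa [div_le_iff₀ ha] at h9
  rw [one_div, Real.log_inv]
  nlinarith

/-- for small cells the second bound is linear with a small constant -/
lemma cell_small (A : Set E) (ha : (stdGaussian E).real A ≤ 1 / 16) :
    ‖∫ x in A, x ∂(stdGaussian E)‖ ^ 2 ≤ (Real.log 2 / 2) * (stdGaussian E).real A := by
  rcases (measureReal_nonneg (μ := stdGaussian E) (s := A)).eq_or_lt with h0 | hpos
  · have hh := cell_half A
    rw [← h0] at hh ⊢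
    simpa using hh
  · have h1 := cell_log A hpos
    set a := (stdGaussian E).real A with ha'
    -- a * log (1/a) ≤ (1/16) * log 16
    have hlog16 : Real.log 16 = 4 * Real.log 2 := by
      rw [show (16 : ℝ) = 2 ^ 4 by norm_num, Real.log_pow]; norm_num
    have hl2 : (0.69 : ℝ) < Real.log 2 := by
      have := Real.log_two_gt_d9; linarith
    have hsplit : Real.log (1 / a) = Real.log 16 + Real.log (1 / (16 * a)) := by
      rw [← Real.log_mul (by norm_num) (by positivity)]
      congr 1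
      field_simp
    have hle : Real.log (1 / (16 * a)) ≤ 1 / (16 * a) - 1 :=
      Real.log_le_sub_one_of_pos (by positivity)
    have hkey : a * Real.log (1 / a) ≤ Real.log 2 / 4 := by
      rw [hsplit, hlog16]
      have h2 : a * Real.log (1 / (16 * a)) ≤ 1 / 16 - a := by
        calc a * Real.log (1 / (16 * a)) ≤ a * (1 / (16 * a) - 1) :=
              mul_le_mul_of_nonneg_left hle hpos.le
          _ = 1 / 16 - a := by field_simp
      nlinarith
    calc _ ≤ 2 * a ^ 2 * Real.log (1 / a) := h1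
      _ = 2 * a * (a * Real.log (1 / a)) := by ring
      _ ≤ 2 * a * (Real.log 2 / 4) := by
          exact mul_le_mul_of_nonneg_left hkey (by positivity)
      _ = Real.log 2 / 2 * a := by ring

lemma sum_measure_le_one {k : ℕ} (A : Fin k → Set E) (hm : ∀ i, MeasurableSet (A i))
    (hd : Pairwise (fun i j => Disjoint (A i) (A j))) :
    ∑ i, (stdGaussian E).real (A i) ≤ 1 := by
  have h := measureReal_biUnion_finset (μ := stdGaussian E) (s := Finset.univ) (f := A)
    (fun i _ j _ hij => hd hij) (fun i _ => hm i)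
  rw [← h]
  exact measureReal_le_one

/-- **Main result.**  Let `γ` be the standard Gaussian measure on `ℝ^d` and let
`A_1, …, A_k` be pairwise disjoint measurable sets (for instance a measurable partition).
Then `∑ ‖∫_{A_i} x dγ‖² ≤ 1/2`, and if every `A_i` has Gaussian measure at most `1/16`
then the propeller bound `∑ ‖∫_{A_i} x dγ‖² ≤ 9/(8π)` holds. -/
theorem result (d k : ℕ) (A : Fin k → Set (EuclideanSpace ℝ (Fin d)))
    (hm : ∀ i, MeasurableSet (A i))
    (hd : Pairwise (fun i j => Disjoint (A i) (A j))) :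
    (∑ i, ‖∫ x in A i, x ∂(stdGaussian (EuclideanSpace ℝ (Fin d)))‖ ^ 2 ≤ 1 / 2) ∧
    ((∀ i, (stdGaussian (EuclideanSpace ℝ (Fin d))).real (A i) ≤ 1 / 16) →
      ∑ i, ‖∫ x in A i, x ∂(stdGaussian (EuclideanSpace ℝ (Fin d)))‖ ^ 2
        ≤ 9 / (8 * Real.pi)) := by
  have hs := sum_measure_le_one A hm hd
  constructor
  · calc _ ≤ ∑ i, (stdGaussian (EuclideanSpace ℝ (Fin d))).real (A i) / 2 :=
          Finset.sum_le_sum fun i _ => cell_half (A i)
      _ = (∑ i, (stdGaussian (EuclideanSpace ℝ (Fin d))).real (A i)) / 2 := by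
          rw [Finset.sum_div]
      _ ≤ 1 / 2 := by linarith
  · intro hsmall
    have hl2 : Real.log 2 < 0.6931471808 := Real.log_two_lt_d9
    have hl0 : 0 < Real.log 2 := Real.log_pos (by norm_num)
    have hpi : Real.pi < 3.15 := Real.pi_lt_d2
    have hfin : Real.log 2 / 2 ≤ 9 / (8 * Real.pi) := by
      rw [le_div_iff₀ (by positivity)]
      nlinarith [Real.pi_pos]
    calc _ ≤ ∑ i, (Real.log 2 / 2) * (stdGaussian (EuclideanSpace ℝ (Fin d))).real (A i) :=
          Finset.sum_le_sum fun i _ => cell_small (A i) (hsmall i)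
      _ = (Real.log 2 / 2) * ∑ i, (stdGaussian (EuclideanSpace ℝ (Fin d))).real (A i) := by
          rw [Finset.mul_sum]
      _ ≤ (Real.log 2 / 2) * 1 := mul_le_mul_of_nonneg_left hs (by positivity)
      _ ≤ 9 / (8 * Real.pi) := by linarith

end Vale.Agent.Results.P226.SmallCells
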